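import Vale.Agent.P014T.Ev.He
import Vale.Agent.P014T.Ts.Sm

/-! # P014 T, block EV: evaluation of the class at the divisor of a function -/

set_option autoImplicit false
set_option linter.all false

open scoped Classical

noncomputable section

namespace Vale.Agent.P014T.Ev

open Vale.Agent.P019P P025H492 P025H816 P027M.K Vale.Agent.P004H.H666 Kc Pu Function Filter
open Ts hiding sub_zero ev
open Finsupp (single)

variable {k E F M : Type} [Field k] [Field E] [Field F] [Field M] [Algebra k E] [Algebra k F]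
  [Algebra k M] {Γ N : Subgroup (SL k M)} {Y : Set (Plk k M)} {m : ℕ}

/-- the open subgroups have finite index -/
def Cq (Γ : Subgroup (SL k M)) : Prop := ∀ Z : Finset M, ∃ T : Set (SL k M), T.Finite ∧
  ∀ x ∈ Γ, ∃ τ ∈ T, τ⁻¹ * x ∈ fxs k (Z : Set M)

theorem Cq.mono (h : Cq Γ) {Δ : Subgroup (SL k M)} (le : Δ ≤ Γ) : Cq Δ := fun Z =>
  (h Z).imp fun _ e => ⟨e.1, fun x l => e.2 x (le l)⟩

theorem Cq.fin (h : Cq Γ) {A : Type} {f : SL k M → A}
    (hf : ∀ᶠ v in nb k M, v ∈ Γ → ∀ x ∈ Γ, f (x * v) = f x) : (f '' Γ).Finite := by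
  obtain ⟨Z, hZ⟩ := ev_nb.1 hf
  obtain ⟨T, t, hT⟩ := h Z
  refine (t.biUnion fun τ _ => Set.Subsingleton.finite
    (s := f '' {x | x ∈ Γ ∧ τ⁻¹ * x ∈ fxs k (Z : Set M)}) ?_).subset ?_
  · rintro _ ⟨x, ⟨l, e⟩, rfl⟩ _ ⟨y, ⟨l', e'⟩, rfl⟩
    have := hZ _ (mul_mem (inv_mem e) e') (by simpa [mul_assoc] using mul_mem (inv_mem l) l') x l
    simpa [mul_assoc] using this.symm
  · rintro _ ⟨x, l, rfl⟩
    obtain ⟨τ, a, e⟩ := hT x l
    exact Set.mem_biUnion a ⟨x, ⟨l, e⟩, rfl⟩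

theorem nb_cs (c : Cs k) : ∀ᶠ y in nb k M, y • c = c :=
  (nb_k ((Additive.toMul (α := kˣ) c : kˣ) : k)).mono fun _ h => Units.ext h

variable [CFF k M]

theorem ex_R (A : Fm Γ N Y) (h : Cq Γ) {Z : Set (Plk k M)} (hZ : Z.Finite) : ∃ R lf, Rp Γ N R lf ∧
    (∀ P ∈ R, P ∈ Y) ∧ ∀ P ∈ Z, P ∈ Y → ∃ n ∈ N, n • P ∈ R := by
  have f := ((hZ.inter_of_left Y).biUnion fun P _ => h.fin (f := fun x => x • P)
    ((nb_pl P).mono fun v e _ x _ => by rw [mul_smul, e])).image fun P => (⟦P⟧ : Ob N _).out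
  have a : ∀ P ∈ f.toFinset, ∃ x ∈ Γ, ∃ Q ∈ Z ∩ Y, P = x • Q := fun P l => by
    obtain ⟨Q0, l1, e0⟩ := f.mem_toFinset.1 l
    obtain ⟨Q, l2, x, l', e1⟩ := Set.mem_iUnion₂.1 l1
    obtain ⟨n, i, e⟩ := ex_out N (x • Q)
    exact ⟨n⁻¹ * x, mul_mem (inv_mem (A.le i)) l', Q, l2, by
      rw [mul_smul, eq_inv_smul_iff, ← e0, ← e1, e]⟩
  have b : ∀ x ∈ Γ, ∀ Q ∈ Z ∩ Y, ∃ n ∈ N, n • x • Q ∈ f.toFinset := fun x l Q l' => by
    obtain ⟨n, i, e⟩ := ex_out N (x • Q)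
    exact ⟨n⁻¹, inv_mem i, f.mem_toFinset.2 ⟨x • Q, Set.mem_biUnion l' ⟨x, l, rfl⟩,
      eq_inv_smul_iff.2 e⟩⟩
  have y : ∀ P ∈ f.toFinset, P ∈ Y := fun P l => by
    obtain ⟨x, i, Q, l', e⟩ := a P l
    exact e ▸ A.st x i Q l'.2
  obtain ⟨lf, r⟩ := ex_lf (Γ := Γ) (N := N) (R := f.toFinset) (fun x l P l' => by
    obtain ⟨y, i, Q, i', rfl⟩ := a P l'
    simpa only [mul_smul] using b _ (mul_mem l i) Q i') fun n l P i i' => by
    obtain ⟨u, -, e⟩ := f.mem_toFinset.1 i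
    obtain ⟨v, -, e'⟩ := f.mem_toFinset.1 i'
    refine A.fr n l P (y P i) (e'.symm.trans (Eq.trans ?_ e))
    exact congrArg Quotient.out (out_eq l ((congrArg (n • ·) e).trans e'.symm)).symm
  exact ⟨_, lf, r, y, fun P l l' => by simpa using b 1 (one_mem _) P ⟨l, l'⟩⟩

variable [CFF k F] [Algebra F M] [IsScalarTower k F M] [FiniteDimensional F M]

/-- invariant divisors are principal on `Y` modulo `m` -/
theorem Qt.nrm (A : Fm Γ N Y) (q : Qt N Y F) (cu : ∃ P, P ∉ Y) (hm : (m : k) ≠ 0) {ε : Dv k M}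
    (f : Fx N ε) (h : ∀ P ∉ Y, (m : ℤ) ∣ ε P) :
    ∃ u d, Fx N u ∧ Fx N d ∧ ε = dY Y u + m • d := by
  obtain ⟨ε', e⟩ := q.desc f
  obtain ⟨P0, p⟩ := cu
  obtain ⟨g, D, g0, -, hg⟩ := exists_dv hm (D := ε' - single (down F P0) (dg ε'))
    (by rw [map_sub, dg_sgl, sub_self])
  let u : Un M := un' (algebraMap F M g) ((_root_.map_ne_zero _).2 g0)
  have fu : Fx N u := fun n l => vv_inj ((q.fx _).2 ⟨g, rfl⟩ n l)
  have k1 : ε = dY Y u + m • (ε - dY Y u).mapRange (· / (m : ℤ)) (Int.zero_ediv _) := by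
    ext P
    rw [Finsupp.add_apply, Finsupp.smul_apply, Finsupp.mapRange_apply, nsmul_eq_mul,
      Int.mul_ediv_cancel', Finsupp.sub_apply, add_sub_cancel]
    rw [Finsupp.sub_apply, dY_apply]
    split_ifs with l
    · rw [vv_un, ord_algebraMap, q.ur P l, ← dv_apply, hg, ← e, Finsupp.sub_apply,
        Finsupp.sub_apply, Finsupp.single_eq_of_ne fun i => p (q.y A i l)]
      exact ⟨D (down F P), by simp⟩
    · simpa using h P l
  refine ⟨u, _, fu, fun n l => ?_, k1⟩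
  have := f n l
  rw [k1, smul_add, ← dY_sm (A.st' (A.le l)), fu n l, add_right_inj, sm_n] at this
  exact smul_right_injective _ (ne_zero_of_cast hm) this

variable [CharZero k] [IsAlgClosed k] {a b : ℚ} (hD : 4 * a ^ 3 + 27 * b ^ 2 ≠ 0)

theorem geo0 [CFF k E] [Algebra E F] [IsScalarTower k E F] [FiniteDimensional E F] [Algebra E M]
    [IsScalarTower k E M] [IsScalarTower E F M] {x y : E}
    {n : (crv (a : E) (b : E)).Nonsingular x y} (g : Gn k x y) (A : Fm Γ N Y) (q : Qt N Y F)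
    (fi : Cq Γ) (cu : ∃ P, P ∉ Y) {ξ : Pm M a b}
    (eξ : ξ = mq (algebraMap F M) (mq (algebraMap E F) (pt n))) (hξ : Fx Γ ξ)
    (c : ∀ P ∉ Y, sq hD P ξ = 0) (hm : m ≠ 0) {o : SL k M → SL k M → Cs k}
    (O : Om Γ (dY Y) m fun x y => ic M (o x y))
    (so : ∀ᶠ v in nb k M, v ∈ Γ → ∀ x ∈ Γ, ∀ y ∈ Γ, o x (y * v) = o x y ∧ o (x * v) y = o x y)
    {z : SL k M → Ep k a b} (kz : Kc Γ N (dY Y) (SN hD N ξ) m (fun x y => ic M (o x y)) z)
    {s t s' : Ep k a b} (fs : Fx Γ s) (ft : Fx Γ t) (t0 : t ≠ 0) (t1 : t + s ≠ 0) (hs : m • s' = s)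
    {f : Fˣ} (ff : Fx Γ (show Un M from Additive.ofMul (jU M f)))
    (fc : ∀ P ∉ Y, Val (down F P) (f : F) 1) {Av : Dv k F} (av : ∀ P ∉ Y, Av (down F P) = 0)
    (fd : ∀ P ∈ Y, ord (down F P) (f : F) = Av (down F P) - pull F (single (pl hD (n := n) g (t + s)) 1 -
      single (pl hD (n := n) g t) 1) (down F P))
    (iv : ∀ θ ∈ Γ, ∀ P : Plk k M, Av (down F (θ • P)) = Av (down F P)) :
    ∃ (R : Finset (Plk k M)) (lf : SL k M → Plk k M → SL k M) (c : SL k M → Cs k), Rp Γ N R lf ∧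
      (∀ P ∈ R, P ∈ Y) ∧ (∀ Q ∈ Av.support, ∃ P ∈ R, down F P = Q) ∧ (∀ x ∈ Γ, m • c x = 0) ∧
      (∀ x ∈ Γ, ∀ y ∈ N, c (x * y) = c x) ∧ (∀ᶠ y in nb k M, y ∈ Γ → ∀ x ∈ Γ, c (x * y) = c x) ∧
      ∀ x ∈ Γ, ∀ y ∈ Γ, ew hD m (x • s' - s') (x • z y) +
        ∑ P ∈ R, Av (down F P) • o (lf x (lf y P • P)) (lf y P) = c x + x • c y - c (x * y) := by
  have := A.fin
  have Fr := A.frame hD hξ c
  have L := ls A hm
  obtain ⟨W0, l0, T0, Q, h0, hQ, hz⟩ := id kz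
  obtain ⟨u, d, fu, fd', e⟩ := q.nrm A cu (Nat.cast_ne_zero.2 hm) (h0.efx Fr) fun P l => by
    rw [Finsupp.sub_apply, dY_apply, if_neg l, sub_zero]; exact ⟨T0 P, rfl⟩
  obtain ⟨h1, nm⟩ := h0.norm Fr fu fd' e
  obtain ⟨Z, hZ⟩ := ev_nb.1 (((nb_bot (N := N)).and (nb_comm A.nz)).and
    ((eventually_all.2 fun n : N => nb_un (W0 n)).and (so.and (nb_dv (T0 - d)))))
  obtain ⟨W, h, sW, eW⟩ := h1.smooth Fr O (V := Γ ⊓ fxs k (Z : Set M)) inf_le_left
    (fun n l i => (hZ n i.2).1.1 l) (fun v i => (hZ v i.2).1.2 i.1)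
    (fun v i n l => (hZ v i.2).2.1 ⟨n, l⟩) (fun x i y i' v l => by
      have := (hZ v l.2).2.2.1 l.1 x i y i'
      exact ⟨congrArg _ this.1, congrArg _ this.2⟩) fun v i => (hZ v i.2).2.2.2
  have sW' : ∀ᶠ v in nb k M, v ∈ Γ → ∀ x, W (x * v) = W x :=
    ev_nb.2 ⟨Z, fun v i l x => sW x v ⟨l, i⟩⟩
  have tq : m • (Q - SN hD N ξ d) = 0 := by
    rw [smul_sub, hQ, e, map_add, Fr.ab u fu, zero_add, map_nsmul, sub_self]
  have ez : ∀ y ∈ Γ, z y = SN hD N ξ (dY Y (W y) - (y • (T0 - d) - (T0 - d))) +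
      (y • (Q - SN hD N ξ d) - (Q - SN hD N ξ d)) := fun y l => by
    rw [hz y l, eW y l, smul_sub y Q, ← Fr.se y l d fd']
    simp only [smul_sub, map_sub]
    abel
  generalize Q - SN hD N ξ d = q0 at tq ez
  generalize l0 + u = l at h nm
  generalize T0 - d = T at h nm ez
  obtain ⟨φ, B, e1, e2, e3⟩ := ex_phi hD (n := n) g (m := m) (s := s')
    (B0 := single (pl hD (n := n) g (t + s)) 1 - single (pl hD (n := n) g t) 1) (by simp [dg_sgl])
    (by rw [Finsupp.sub_apply, Finsupp.single_eq_of_ne ((pl_inj hD g).ne t0.symm),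
        Finsupp.single_eq_of_ne ((pl_inj hD g).ne t1.symm), sub_self])
    (by rw [map_sub, Sq_single, Sq_single, sq_pl, sq_pl, one_smul, one_smul, add_sub_cancel_left, hs])
  obtain ⟨Φ, eΦ⟩ : ∃ Φ : Un M, Φ = Additive.ofMul (jU M (f / jU F φ)) := ⟨_, rfl⟩
  have fΦ : Fx N Φ := fun n l => vv_inj (eΦ ▸ (q.fx _).2 ⟨_, rfl⟩ n l)
  have o0 : ∀ P ∉ Y, down E (down F P) = pl hD (n := n) g 0 := fun P l => by
    rw [← pl_sq hD (n := n) g (down E _), ← sq_down, ← sq_down, ← eξ, c P l]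
  have dv1 : ∀ {K : Type} [Field K] [Algebra k K] [CFF k K] {P : Plk k K} {u v : Kˣ},
      Val P (u : K) 1 → Val P (v : K) 1 → Val P ((u / v : Kˣ) : K) 1 := fun a b =>
    val_one_of_lc (by rw [ou_div, (a.unit one_ne_zero).2, (b.unit one_ne_zero).2, sub_self])
      (by rw [lc_div, lc_eq_zero a, lc_eq_zero b, sub_self])
  have cΦ : ∀ P ∉ Y, Val P (vv Φ) 1 := fun P l => eΦ ▸ Val.up (dv1 (fc P l) (Val.up (o0 P l ▸ e3)))
  have oΦ : ∀ P ∈ Y, od P (dY Y Φ) = Av (down F P) - m * pull F B (down F P) := fun P l => by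
    rw [od_dY l, eΦ]
    refine (ord_jU P _).trans ?_
    rw [q.ur P l, ou_div, fd P l, jU_val, ← dv_apply, dv_algebraMap, e1, map_sub (pull F) (m • B),
      map_nsmul, Finsupp.sub_apply, Finsupp.smul_apply, nsmul_eq_mul]
    push_cast
    ring
  have key : ∀ θ ∈ Γ, ∃ (ψ : Eˣ) (B' : Dv k E), θ • Φ - Φ = Additive.ofMul (jU M (jU F ψ)) ∧
      m • B' = dv k (ψ : E) ∧ Val (pl hD (n := n) g 0) (ψ : E) 1 ∧
      Sq hD (pt n) B' = -(θ • s' - s') := fun θ l => by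
    obtain ⟨θ', a1, a2, a3⟩ := ex_rs hD g (n := n) (θ := θ) (by
      rw [← mq_mq (algebraMap E F) (algebraMap F M) _ (IsScalarTower.algebraMap_apply E F M), ← eξ]
      exact hξ θ l)
    have a4 : ∀ e : Ep k a b, θ' • e = θ • e := fun e => by rw [ep_sm, ep_sm, a2]
    have a5 : dv k ((mU θ'.1 φ : Eˣ) : E) = θ' • dv k (φ : E) := Finsupp.ext fun P => by
      rw [dv_sm, dv_apply, dv_apply, ← ord_sm θ' (θ'⁻¹ • P), smul_inv_smul, mU_val]
    refine ⟨φ / mU θ'.1 φ, B - θ' • B, vv_inj ?_, Finsupp.ext fun P => ?_, dv1 e3 ?_, ?_⟩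
    · have := congrArg vv (ff θ l)
      rw [vv_sub, vv_smul, eΦ]
      change θ.1 (algebraMap F M (f : F)) = algebraMap F M (f : F) at this
      change θ.1 (algebraMap F M ((f / jU F φ : Fˣ) : F)) / algebraMap F M ((f / jU F φ : Fˣ) : F) =
        algebraMap F M (algebraMap E F ((φ / mU θ'.1 φ : Eˣ) : E))
      simp only [Units.val_div_eq_div_val, map_div₀, this, jU_val, mU_val,
        ← IsScalarTower.algebraMap_apply, a1]
      rw [div_div_div_cancel_left' _ _ ((_root_.map_ne_zero _).2 f.ne_zero)]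
    · rw [dv_apply, ou_div, ← dv_apply, ← dv_apply, a5, e1, ← Finsupp.sub_apply, smul_sub θ',
        smul_sub θ', sm_single, sm_single, pl_sm hD g a3, pl_sm hD g a3, a4, a4, smul_add, fs θ l,
        ft θ l, sm_n, smul_sub, sub_sub_sub_cancel_right]
    · have := e3.semi (res0_spec θ')
      rwa [map_one, show plEquiv _ _ (res0_spec θ') _ = _ from pl_sm hD g a3 0, smul_zero] at this
    · rw [map_sub, ← a3, Sq_sm, a3, e2, a4, neg_sub]
  obtain ⟨R, lf, r, hR, cv⟩ := ex_R A fi (Z := (⋃ w ∈ insert l (insert Φ (W '' Γ)),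
    ((dY Y w).support : Set (Plk k M))) ∪ down F ⁻¹' Av.support) (.union (.biUnion
      (((fi.fin (sW'.mono fun v e l x _ => e l x)).insert _).insert _) fun _ _ => Finset.finite_toSet _)
      (Av.support.finite_toSet.preimage' fun P _ => over_finite P))
  have sp : ∀ w ∈ insert l (insert Φ (W '' Γ)), Sp N (dY Y) Y od R w := fun w i P l e =>
    not_not.1 fun j => (cv P (.inl (Set.mem_biUnion i (Finsupp.mem_support_iff.2 j))) l).elim
      fun n j => e n j.1 j.2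
  have sΦ := sp Φ (.inr (.inl rfl))
  have ts : ∀ θ ∈ Γ, m • (θ • s' - s') = 0 := fun θ l => by
    rw [smul_sub, ← sm_n, hs, fs θ l, sub_self]
  have tm : ∀ (θ : SL k M) {e : Ep k a b}, m • e = 0 → m • θ • e = 0 := fun θ e l => by
    rw [← sm_n, l, smul_zero]
  obtain ⟨c0, k0, c1, c2, c3, c4⟩ := ev Fr O h nm L r hR (fun _ _ _ _ => rfl) fΦ (fun θ l P i => by
      obtain ⟨ψ, B', a1, a2, -⟩ := key θ l
      rw [od_dY i, a1]
      exact jU_mem (jU_mem (f := ψ) fun P => ⟨B' P, by rw [← dv_apply, ← a2]; rfl⟩) P)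
    (q.we r hR fΦ sΦ cΦ) (fun x i => sp _ (.inr (.inr ⟨x, i, rfl⟩))) (sp l (.inl rfl))
    (eW := fun e θ => ew hD m e (-(θ • s' - s'))) (fun θ l u d fu fd e su => by
      obtain ⟨ψ, B', a1, a2, a3, a4⟩ := key θ l
      rw [a1, ← a4]
      exact q.he hD A g eξ (fun n i => hξ n (A.le i)) c r hR hm a2 a3
        (a1 ▸ (sΦ.sm Fr r L l).sub sΦ) fu fd e su) fun c => by
      obtain ⟨z, e⟩ := IsAlgClosed.exists_pow_nat_eq ((Additive.toMul (α := kˣ) c : kˣ) : k)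
        (Nat.pos_of_ne_zero hm)
      exact ⟨un' z fun l => Units.ne_zero _ (by rw [← e, l, zero_pow hm]), Units.ext
        ((vv_nsmul m _).trans e)⟩
  refine ⟨R, lf, fun x => c0 x - ew hD m (x • s' - s') (x • q0), r, hR, fun Q i => ?_,
    fun x i => ?_, fun x i y j => ?_, ?_, fun x i y j => ?_⟩
  · obtain ⟨P, rfl⟩ := exists_over (L := M) Q
    obtain ⟨n, j, e⟩ := cv P (.inr i) (not_not.1 fun j => Finsupp.mem_support_iff.1 i (av P j))
    exact ⟨_, e, q.dn j P⟩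
  · rw [smul_sub, c1 x i, ew_tor hD hm (ts x i) (tm x tq), sub_self]
  · simp only [c2 x i y j, mul_smul, Fr.tr _ y j]
  · filter_upwards [(eventually_all_finset R).2 fun P _ => nb_pl P, sW', nb_un l, nb_un Φ, nb_cs k0,
      nb_ep s', nb_ep q0] with v a1 a2 a3 a4 a5 a6 a7 j x i
    simp only [c3 v j a1 (a2 j) a3 a4 a5 x i, mul_smul, a6, a7]
  · have t1 : m • (y • q0 - q0) = 0 := by rw [smul_sub, tm y tq, tq, sub_self]
    have t2 : m • SN hD N ξ (dY Y (W y) - (y • T - T)) = 0 := by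
      have := kz.tor Fr O j
      rwa [ez y j, smul_add, t1, add_zero] at this
    have e := c4 x i y j
    rw [ew_neg hD hm (tm x t2) (ts x i), Finset.sum_congr rfl (g := fun P =>
      Av (down F P) • o (lf x (lf y P • P)) (lf y P)) fun P l => by
        have a1 := r.lm Fr j l
        have a2 := r.lm Fr i (r.mem y j P l)
        have a3 := r.lm Fr (mul_mem i j) l
        rw [oΦ _ (A.st _ a3 P (hR P l)), iv _ a3, sub_smul, mul_comm, mul_smul, natCast_zsmul,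
          ic_inj ((map_nsmul _ _ _).trans ((O.mz _ a2 _ a1).trans (map_zero _).symm)), smul_zero,
          sub_zero]] at e
    have e' : (x * y) • s' - s' = (x • s' - s') + x • (y • s' - s') := by
      rw [mul_smul, smul_sub]; abel
    simp only
    rw [ez y j, smul_add, ew_add_r hD hm (ts x i) (tm x t2) (tm x t1), smul_sub x (y • q0),
      ew_sub_r hD hm (ts x i) (tm x (tm y tq)) (tm x tq), smul_sub x (c0 y),
      ew_sm hD hm (ts y j) (tm y tq), e', mul_smul,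
      ew_add_l hD hm (ts x i) (tm x (ts y j)) (tm x (tm y tq))]
    linear_combination (norm := abel) e

end Vale.Agent.P014T.Ev
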