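import Vale.Agent.P014T.Ev.St
import Vale.Agent.P014T.Ev.Geo
import Vale.Agent.P014T.Ev.Out
import Vale.Agent.P014T.Pu.Wk

/-! # P014 T, block EV: the evaluation of the pairing -/

set_option autoImplicit false
set_option linter.all false

open scoped Classical

noncomputable section

namespace Vale.Agent.P014T.Ev

open Vale.Agent.P019P P025H492 P025H816 P027M.K Vale.Agent.P004H.H666 Kc Pu Function Filter Topology
open Ts hiding sub_zero ev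
open Vale.Agent.P022 (Qb GQ)
open Vale.Agent.P004S.Ga (K O)
open Vale.Agent.P004S.Aq (cy O_of O_mul)
open Vale.Agent.P004F.Rc (hn hn_mul)
open Vale.Agent.P004M.TE (Pt ga)

theorem cw_sm {G U X : Type} [Group G] [AddCommGroup U] [DistribMulAction G U] [Fintype X]
    {Γ Γ' : Subgroup G} {r : X → G} {p : G → X → X} (w : X → ℤ) {ζ α β : U} {a b : G → ℤ}
    (t : Tr Γ Γ' r p) (ha : Rt Γ' ζ α a) (hb : Rt Γ' ζ β b) {v x y : G} (l : v ∈ Γ)
    (h1 : ∀ i, p v i = i) (h2 : ∀ i, v • r i • α = r i • α) (h3 : ∀ i, v • r i • β = r i • β)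
    (hx : x ∈ Γ) (hy : y ∈ Γ) : cw2 w r p (cp ζ a b) x (y * v) = cw2 w r p (cp ζ a b) x y ∧
      cw2 w r p (cp ζ a b) (x * v) y = cw2 w r p (cp ζ a b) x y := by
  have k : ∀ {α : U} {a : G → ℤ}, Rt Γ' ζ α a → (∀ i, v • r i • α = r i • α) → ∀ x ∈ Γ, ∀ i,
      a (ta r p (x * v) i) • ζ = a (ta r p x i) • ζ := fun ha h x hx i => by
    rw [← ha _ (t.ta_mem (mul_mem hx l) i), ← ha _ (t.ta_mem hx i)]
    simp only [ta, t.mul hx l, h1, mul_smul, h]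
  refine ⟨Finset.sum_congr rfl fun i _ => ?_, Finset.sum_congr rfl fun i _ => ?_⟩
  · rw [t.mul hy l, h1, cp, cp, cg rfl (k hb h3 y hy i)]
  · rw [t.mul hx l, h1, cp, cp, cg (k ha h2 x hx _) rfl]

theorem geo {k F M : Type} [Field k] [Field F] [Field M] [Algebra k F] [Algebra k M] [CFF k M]
    [CFF k F] [Algebra F M] [IsScalarTower k F M] [FiniteDimensional F M] [CharZero k]
    [IsAlgClosed k] {Γ N : Subgroup (SL k M)} {Y : Set (Plk k M)} {m : ℕ} {a b : ℚ}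
    (hD : 4 * a ^ 3 + 27 * b ^ 2 ≠ 0) {x y : F} {n : (crv (a : F) (b : F)).Nonsingular x y}
    (tr : Transcendental k x) (A : Fm Γ N Y) (q : Qt N Y F) (fi : Cq Γ) (cu : ∃ P, P ∉ Y)
    (hξ : Fx Γ (mq (algebraMap F M) (pt n)))
    (c : ∀ P ∉ Y, sq hD P (mq (algebraMap F M) (pt n)) = 0) (hm : m ≠ 0)
    {o : SL k M → SL k M → Cs k} (O : Om Γ (dY Y) m fun x y => ic M (o x y))
    (so : ∀ᶠ v in nb k M, v ∈ Γ → ∀ x ∈ Γ, ∀ y ∈ Γ, o x (y * v) = o x y ∧ o (x * v) y = o x y)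
    {z : SL k M → Ep k a b}
    (kz : Kc Γ N (dY Y) (SN hD N (mq (algebraMap F M) (pt n))) m (fun x y => ic M (o x y)) z)
    {s t s' : Ep k a b} (fs : Fx Γ s) (ft : Fx Γ t) (t0 : 2 • t ≠ 0) (t1 : 2 • (t + s) ≠ 0)
    (hs : m • s' = s) {f : F} (f0 : f ≠ 0) (ff : ∀ θ ∈ Γ, θ.1 (algebraMap F M f) = algebraMap F M f)
    (fc : ∀ P ∉ Y, Val (down F P) f 1) {Av : Dv k F} (av : ∀ P ∉ Y, Av (down F P) = 0)
    (fd : ∀ P ∈ Y, ord (down F P) f =
      Av (down F P) - (pm x y (t + s) (down F P) - pm x y t (down F P)))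
    (iv : ∀ θ ∈ Γ, ∀ P : Plk k M, Av (down F (θ • P)) = Av (down F P)) :
    ∃ (R : Finset (Plk k M)) (lf : SL k M → Plk k M → SL k M) (c : SL k M → Cs k), Rp Γ N R lf ∧
      (∀ P ∈ R, P ∈ Y) ∧ (∀ Q ∈ Av.support, ∃ P ∈ R, down F P = Q) ∧ (∀ x ∈ Γ, m • c x = 0) ∧
      (∀ x ∈ Γ, ∀ y ∈ N, c (x * y) = c x) ∧ (∀ᶠ y in nb k M, y ∈ Γ → ∀ x ∈ Γ, c (x * y) = c x) ∧
      ∀ x ∈ Γ, ∀ y ∈ Γ, ew hD m (x • s' - s') (x • z y) +
        ∑ P ∈ R, Av (down F P) • o (lf x (lf y P • P)) (lf y P) = c x + x • c y - c (x * y) := by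
  have := cff_adj (y := y) tr
  have := fin_adj (y := y) tr
  have g := gn_adj (y := y) tr
  have n0 : (crv (a : IntermediateField.adjoin k {x, y}) (b : IntermediateField.adjoin k {x, y})).Nonsingular
      (gx k x y) (gy k x y) := (cd (k := k) hD _).nsg (Subtype.ext (by simpa [gx, gy] using Pu.eqn n))
  have e0 : mq (algebraMap _ F) (pt n0) = pt n :=
    mp_some (algebraMap (IntermediateField.adjoin k {x, y}) F) (map_ratCast _ a) (map_ratCast _ b) n0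
  exact geo0 hD (n := n0) (f := Units.mk0 f f0) g A q fi cu (congrArg _ e0.symm) hξ c hm O so
    kz fs ft (fun e => t0 (by rw [e, smul_zero])) (fun e => t1 (by rw [e, smul_zero])) hs
    (fun θ l => vv_inj (ff θ l)) fc av (fun P l => by
      rw [map_sub, Finsupp.sub_apply, ← pm_eq hD (n := n0) g t0, ← pm_eq hD (n := n0) g t1]
      exact fd P l) iv

variable {F M : Type} [Field F] [Field M] [Algebra Qb F] [Algebra Qb M]

theorem rq_td : Tendsto (rq : SL Qb M → GQ) (nb Qb M) (𝓝 1) := fun s h => by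
  obtain ⟨E, f, e⟩ := (krullTopology_mem_nhds_one_iff _ _ s).1 h
  refine (eventually_all.2 fun i => nb_k (Module.finBasis ℚ E i : Qb)).mono fun θ k => e ?_
  have : (rq θ).toLinearMap ∘ₗ E.val.toLinearMap = E.val.toLinearMap := (Module.finBasis ℚ E).ext k
  exact (IntermediateField.mem_fixingSubgroup_iff _ _).2 fun x hx => DFunLike.congr_fun this ⟨x, hx⟩

theorem Lk.cq [Algebra F M] [IsScalarTower Qb F M] [CFF Qb F] [CFF Qb M] [FiniteDimensional F M]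
    {σ : GQ →* SL Qb F} {Γ N : Subgroup (SL Qb M)} {Y : Set (Plk Qb M)} (L : Lk σ Γ N)
    (A : Fm Γ N Y) (q : Qt N Y F) : Cq Γ := fun Z => by
  have := A.fin
  have : IsGalois ℚ Qb := IsAlgClosure.isGalois ℚ Qb
  let U := (Γ ⊓ fxs Qb (Z : Set M)).map rq
  have : Finite (GQ ⧸ U) := U.quotient_finite_of_isOpen (U.isOpen_of_mem_nhds (g := 1)
    ((L.ev A q (ev_nb.2 ⟨Z, fun _ h => h⟩)).mono fun g ⟨θ, a, b, c⟩ => ⟨θ, ⟨a, c⟩, b⟩))
  choose lt l1 l2 using L.sur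
  refine ⟨_, Set.finite_range fun c : (GQ ⧸ U) × N => lt c.1.out * c.2, fun x l => ?_⟩
  obtain ⟨θ, a, e⟩ := QuotientGroup.eq.1 (Quotient.out_eq' (QuotientGroup.mk (rq x) : GQ ⧸ U))
  refine ⟨_, ⟨(QuotientGroup.mk (rq x), ⟨_, L.ker _ (mul_mem (mul_mem (inv_mem (l1 _)) l) (inv_mem a.1))
    (by rw [map_mul, map_mul, map_inv, map_inv, l2, e, mul_inv_cancel])⟩), rfl⟩, ?_⟩
  simpa [mul_assoc] using a.2

theorem sm_ga {A B : ℤ} (θ : SL Qb M) (e : Ep Qb A B) : θ • e = (ga (rq θ) : Pt A B →+ Pt A B) e :=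
  (ga_ea (rq θ) e).symm

theorem ew_eq {A B : ℤ} (hD : 4 * ((A : ℤ) : ℚ) ^ 3 + 27 * ((B : ℤ) : ℚ) ^ 2 ≠ 0) (m : ℕ)
    (θ : SL Qb M) (R z : Ep Qb A B) :
    eQ hD m (Bt.dd A B R (rq θ)) (ga (rq θ) z) = ew hD m (θ • R - R) (θ • z) := by
  rw [sm_ga, sm_ga]; rfl

theorem ex_odd (u : ℤ_[2]ˣ) (n : ℕ) : ∃ k : ℕ, Odd k ∧ hn n * (k * ((u : ℤ_[2]) : K) - 1) ∈ O := by
  refine ⟨ap ((u⁻¹ : ℤ_[2]ˣ) : ℤ_[2]) (n + 1), Nat.coprime_two_right.1 ((ZMod.isUnit_iff_coprime _ (2 ^ 1)).1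
    ((cast_ap (l := 2) _ (Nat.le_add_left 1 n)).symm ▸ (u⁻¹).isUnit.map _)),
    O_of (O_mul (O_mul (Ew.ap_O (n + 1) (u⁻¹ : ℤ_[2]ˣ)) (u : ℤ_[2]).2) (Sy.O_z 2)) ?_⟩
  have : (((u⁻¹ : ℤ_[2]ˣ) : ℤ_[2]) : K) * (u : ℤ_[2]) = 1 := by
    rw [← PadicInt.coe_mul, Units.inv_mul, PadicInt.coe_one]
  rw [← Sy.hn_add n 1]
  push_cast
  linear_combination hn (n + 1) * 2 * this

/-- **evaluation of the pairing** -/
theorem evp : EVP := by
  intro A B hD n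
  obtain ⟨u0, hu⟩ := eQ_wp hD
  obtain ⟨k, o, hk⟩ := ex_odd u0 n
  refine ⟨-k, (Int.odd_coe_nat k).2 o |>.neg, ?_⟩
  rintro F C _ _ _ _ _ Φ σ H j x y u v nn z J _ s p W R t R' f Av hA tr ⟨Q0, cu⟩ fx hH hζ
    ⟨M, _, _, _, _, _, _, Γ, N, α, β, A0, q, L, c0, ra, rb, un, a, b, ha, hb, kc⟩ T hW hR ht t0 t1 hs f0 ff
    iv fc fd
  choose r hr using fun i => L.sur (s i)
  have T' : Tr Γ (ov Γ H) r fun x => p (rq x) := ⟨inf_le_left, fun i => (hr i).1,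
    fun x l i => Ou.ta_ov T hr l i, fun i j l => T.un i j (by
      rw [← (hr i).2, ← (hr j).2, ← map_inv, ← map_mul]; exact l.2)⟩
  have hξ : Fx Γ (mq (algebraMap F M) (pt nn)) := fun θ l => by
    rw [show mq (algebraMap F M) (pt nn) = pt _ from mp_some _ _ _ nn]
    exact mp_id _ _ _ _ ((L.up θ l x).trans (congrArg _ (fx _).1))
      ((L.up θ l y).trans (congrArg _ (fx _).2))
  have Fr := A0.frame hD hξ c0
  have Z : Ze (ov Γ H) (dY (Yo M j)) (2 ^ n) (ic M (xc (hn n))) :=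
    ⟨fun θ l => (ic_sm θ _).trans (congrArg _ (Units.ext (hζ _ l.2))), by
      rw [← map_nsmul, ← map_nsmul, ← map_zero (ic (k := Qb) M), ← map_zero xc, xc_eq.2]
      exact O_of (Sy.O_z 1) (by rw [nsmul_eq_mul, sub_zero, Nat.cast_pow, Nat.cast_ofNat, hn_mul, Int.cast_one]),
      dY_cu _ _⟩
  have hw : ∀ x ∈ ov Γ Φ.D, ∀ i, W (p (rq x) i) = W i := fun x l => hW _ l.2
  have A1 := fm_ov A0 Φ.D
  have Ω := Om.trW T' inf_le_left hw Fr.eq (cp_om Z ha hb)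
  have K := Kc.trW T' inf_le_left hw Fr (fm_ov A0 H).le A1.le (cp_om Z ha hb) kc
  obtain ⟨zw, ez⟩ : ∃ zw : GQ → Pt A B,
    zw = fun g => ∑ i, W i • ga (s (p g i)) (z (ta s p g i)) := ⟨_, rfl⟩
  have e1 : cw1 (A := Ep Qb A B) W r (fun x => p (rq x)) (fun θ => z (rq θ)) = fun θ => zw (rq θ) := by
    rw [ez]
    exact funext fun θ => Finset.sum_congr rfl fun i _ => congrArg (W i • ·) ((sm_ga _ _).trans (by
      simp only [ta, map_mul, map_inv, (hr _).2]; rfl))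
  have e2 : ∀ x y, cw2 W r (fun x => p (rq x)) (cp (ic M (xc (hn n))) a b) x y =
      ic M (cw2 W r (fun x => p (rq x)) (cp (xc (hn n)) a b) x y) := fun x y => by
    simp only [cw2, cp, map_sum, map_zsmul, ← ic_sm]
  rw [e1] at K
  rw [funext₂ e2] at K Ω
  rw [← ez]
  have lo : ∀ g ∈ Φ.D, ∃ θ ∈ ov Γ Φ.D, rq θ = g := fun g l =>
    let ⟨θ, i, e⟩ := L.sur g
    ⟨θ, ⟨i, Subgroup.mem_comap.2 (e.symm ▸ l)⟩, e⟩
  have Fr' := Fr.mono inf_le_left A1.le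
  have co : ∀ g ∈ Φ.D, ∀ h ∈ Φ.D, zw (g * h) = zw g + ga g (zw h) := fun g l h l' => by
    obtain ⟨θ, i, rfl⟩ := lo g l
    obtain ⟨θ', i', rfl⟩ := lo h l'
    rw [← map_mul]
    exact (K.coc Fr' Ω i i').trans (congrArg _ (sm_ga _ _))
  have z0 : ∀ᶠ g in 𝓝 (1 : GQ), z g = 0 := by
    filter_upwards [hH, L.ev A0 q (Fm.lc hD (fm_ov A0 H) (fun θ l => hξ θ l.1) c0 Z
      ⟨a, b, ha, hb, kc⟩ fun f _ => nb_el f)] with g l ⟨θ, i, e, h⟩
    exact e ▸ h ⟨i, Subgroup.mem_comap.2 (e.symm ▸ l)⟩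
  have z1 : ∀ᶠ g in 𝓝 (1 : GQ), zw g = 0 := by
    filter_upwards [eventually_all.2 (Ou.ev_p hH T), eventually_all.2 fun i =>
      (((continuous_const.mul continuous_id).mul continuous_const).tendsto' (1 : GQ) 1
        (by simp : (s i)⁻¹ * id 1 * s i = 1)).eventually z0] with g e e'
    rw [ez]
    exact Finset.sum_eq_zero fun i _ => by
      rw [ta, e i, show z ((s i)⁻¹ * g * s i) = 0 from e' i, map_zero]
      exact zsmul_zero _
  have zn : Cp.Zn Φ.D n zw := ⟨(IsLocallyConstant.iff_eventually_eq _).2 fun g =>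
      (eventually_nhds_subtype_iff (Φ.D : Set GQ) g fun h => zw h = zw g).2 (Sy.Lc.of_nhds z1
        (fun g l w l' e => by rw [co g l w l', show zw w = 0 from e, map_zero, add_zero]) g g.2), co,
    fun g l => by
      obtain ⟨θ, i, rfl⟩ := lo g l
      exact K.tor Fr' Ω i⟩
  have zd : Cp.Zn Φ.D n (Bt.dd A B R') := Cp.zn_dd (hs.symm ▸ hR)
  have z2 := Cp.cp_z2 (Ki.pr hD) zd zn
  have z3 := Sy.z2_smul z2 (c := (u0 : ℤ_[2])) (u0 : ℤ_[2]).2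
  obtain ⟨P0, rfl⟩ := exists_over (L := M) Q0
  obtain ⟨R0, lf, c, ρ, h1, h2, h3, h4, h5, key⟩ := geo hD tr A1 q ((L.cq A0 q).mono inf_le_left)
    ⟨P0, fun l => cu ((mem_down _ _).2 l)⟩ (fun θ l => hξ θ l.1) c0 (pow_ne_zero n two_ne_zero) Ω (by
      filter_upwards [rq_td.eventually (eventually_all.2 (Ou.ev_p hH T)),
        eventually_all.2 fun i => nb_un (r i • α), eventually_all.2 fun i => nb_un (r i • β)]
        with v a1 a2 a3 l x i y i'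
      have := cw_sm W T' ha hb l.1 a1 a2 a3 i.1 i'.1
      simp only [e2] at this
      exact ⟨ic_inj this.1, ic_inj this.2⟩) K (s := R) (t := t) (s' := R')
    (fun θ l => (sm_ga θ _).trans (hR _ l.2)) (fun θ l => (sm_ga θ _).trans (ht _ l.2)) t0 t1 hs f0
    (fun θ l => (L.up θ l.1 f).trans (congrArg _ (ff _ l.2)))
    (fun P l => (fc _ fun i => l ((mem_down _ _).1 i)).1) (fun P l => (fc _ fun i => l ((mem_down _ _).1 i)).2)
    (fun P l => fd _ ((mem_down _ _).2 l)) fun θ l P => by rw [Ou.dn L l.1, iv _ l.2]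
  refine ⟨zn, Eq.trans ?_ (out F M C Φ σ Γ N _ n H J s p W r α β a b u v Av R0 lf c _ hA A0 q L hH hζ T hW
    hr ha hb ra rb un iv ρ h1 h2 h3 h4 h5 z3 (fun x i y i' => ?_) _)⟩
  · rw [neg_neg, natCast_zsmul, ← Φ.iv.nat z3]
    refine Φ.iv.congr z2 (Sy.z2_smul z3 (Sy.O_z k)) fun g _ h _ =>
      O_of (neg_mem (O_mul hk (Ki.wp_lev hD n (Bt.dd A B R' g) (ga g (zw h))))) ?_
    rw [Cp.cp]
    linear_combination (k * ((u0 : ℤ_[2]) : ℚ_[2]) - 1) * Ki.wp hD n (Bt.dd A B R' g) (ga g (zw h)) * hn_mul n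
  · rw [← key x i y i']
    exact congrArg (· + _) ((hu n _ _ (zd.tr _ i.2) (Ki.tor_map (zn.tr _ i'.2) _)).symm.trans
      (ew_eq hD _ _ _ _))

end Vale.Agent.P014T.Ev
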