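import Vale.Agent.P014T.Ev.Br0
import Vale.Agent.P014T.Uy.Zf

/-! # P014 T, block EV: the class of a symbol of modular units in the form for the evaluation -/

set_option autoImplicit false
set_option linter.all false

open CongruenceSubgroup
open scoped MatrixGroups Classical

noncomputable section

namespace Vale.Agent.P014T.Ev

open Vale.Agent.P019P P027M.M Uy
open Ts (Pm Ep Rs mq mq_mq)
open P027M.K (SL)
open Vale.Agent.P022 (Qb GQ)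
open Vale.Agent.P004F.Rc (hn)

/-- the root of unity -/
def zt (n : ℕ) : Qbˣ := Additive.toMul (α := Qbˣ) (xc (hn n))

variable {X : Mdl} {a b : ℚ} {hD : 4 * a ^ 3 + 27 * b ^ 2 ≠ 0} {Γ : Subgroup SL(2, ℤ)}
  {D : Subgroup GQ} {n : ℕ} {z : GQ → Ep Qb a b}

theorem unp0 [CFF Qb (L Γ)] {σ : GQ →* SL Qb (L Γ)}
    (s : ∀ g (y : L Γ), (((σ g).1 y : L Γ) : FF) = X.gal g y) (op : IsOpen (D : Set GQ))
    {ξ : Pm (L Γ) a b} {u v : L Γ}
    (Z : Zf X hD Γ D (mq (algebraMap (L Γ) FF) ξ) (2 ^ n) (zt n) u v z) :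
    Pk hD σ D (Dc.jL Γ) ξ n u v z := by
  obtain ⟨α, β, y, e, e', c, f⟩ := Z.zc
  let μ : L Γ →ₐ[Qb] Om := iO.comp (L Γ).val
  have r : ∀ {θ g}, Rs (μ : L Γ →+* Om) θ (σ g) ↔ Lf X Γ θ g := fun {θ g} =>
    ⟨fun h x l => (h ⟨x, l⟩).symm.trans (congrArg iO (s g _)),
      fun h x => (congrArg iO (s g x)).trans (h x x.2).symm⟩
  have sb : (⊤ : Subgroup GQ).map (gH X) ≤ Sb Γ := le_Sb (by
    rintro _ ⟨g, -, rfl⟩ x l
    exact (s g ⟨x, l⟩ ▸ ((σ g).1 ⟨x, l⟩).2 : X.gal g x ∈ L Γ))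
  have d : ∀ {u : FF}, Ut u → Ts.Dm Qb jO (iO u) ∧ Ts.Dm Qb jO (iO u)⁻¹ := fun h =>
    ⟨h.hl.dm, map_inv₀ iO _ ▸ h.inv.hl.dm⟩
  rw [pO, mq_mq _ _ (μ : L Γ →+* Om) fun _ => rfl] at c
  refine br0 μ (F₀ := LO Γ) (j := Dc.jL Γ) (u := u) (v := v) (fun x => ⟨fun ⟨y, l, e⟩ => ⟨⟨y, l⟩, e⟩, fun ⟨y, e⟩ => ⟨y, y.2, e⟩⟩)
    (fun g => rq_eq fun c => Subtype.ext ((s g _).trans ((x_galx X).2.1 g c)))
    (fun x => Filter.mem_of_superset (((x_galx X).2.2.2.2.2 x).mem_nhds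
      (show X.gal 1 x = x by rw [map_one]; rfl)) fun g l => Subtype.ext ((s g x).trans l))
    (fun g => ⟨_, r.2 (lf_up X Γ g)⟩) (H₀ := HG X Γ ⊤) (fun θ => (mem_HG X sb).trans
      (exists_congr fun g => (and_iff_right trivial).trans r.symm)) (H := HG X Γ D) (fun θ =>
      (mem_HG X Z.bd.sb).trans (exists_congr fun g => and_congr_right fun _ => r.symm))
    (lev_HG X (Lev.fi Z.bd.lev) ⊤) op e e' (d Z.u1.ut) (d Z.u2.ut) c fun θ l => ?_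
  obtain ⟨g, l, h⟩ := (mem_HG X Z.bd.sb).1 l
  rw [f g l θ h, show rq θ = g from AlgEquiv.ext fun c => DFunLike.congr_fun (Lf.res h) c]

/-- **the class of level `Γ(l)`** -/
theorem unp {l : ℕ} (hl : l ≠ 0) [CFF Qb (L (Gamma l))] {σ : GQ →* SL Qb (L (Gamma l))}
    (s : ∀ g (y : L (Gamma l)), (((σ g).1 y : L (Gamma l)) : FF) = X.gal g y)
    {x y u v : FF} {h} (Z : Zf X hD (Gamma l) (Dr.Hm l) (pt (x := x) (y := y) h) (2 ^ n) (zt n) u v z)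
    {x' y' u' v' : L (Gamma l)} (h') (ex : ↑x' = x) (ey : ↑y' = y) (eu : ↑u' = u) (ev : ↑v' = v) :
    Pk hD σ (Dr.Hm l) (Dc.jL _) (pt (x := x') (y := y') h') n u' v' z := by
  subst ex ey eu ev
  exact unp0 s (Dr.Hm_open hl) ((show mq (algebraMap _ FF) (pt h') = pt h from (mq_sm _ h').2) ▸ Z)

end Vale.Agent.P014T.Ev
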