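import Vale.Agent.P014T.Ev.Ls
import Vale.Agent.P014T.Pu.Ad

/-! # P014 T, block EV: the sum of the symbols of level `m` is the pairing of Weil -/

set_option autoImplicit false
set_option linter.all false

open scoped Classical

noncomputable section

namespace Vale.Agent.P014T.Ev

open Vale.Agent.P019P P025H492 P025H816 P027M.K Vale.Agent.P004H.H666 Kc Pu Function
open Ts hiding sub_zero ev
open Finsupp (single)

variable {k E F M : Type} [Field k] [Field E] [Field F] [Field M] [Algebra k E] [Algebra k F]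
  [Algebra k M] [CharZero k] {a b : ℚ} (hD : 4 * a ^ 3 + 27 * b ^ 2 ≠ 0) {m : ℕ}

section ew

variable [IsAlgClosed k] {R R' T T' : Ep k a b}

/-- the pairing of Weil -/
def ew (m : ℕ) (R T : Ep k a b) : Cs k := eW (cd hD k) m R T

theorem ew_skew (R T : Ep k a b) : ew hD m T R = -ew hD m R T := eW_skew _ m R T

theorem ew_add_l (hm : m ≠ 0) (hR : m • R = 0) (hR' : m • R' = 0) (hT : m • T = 0) :
    ew hD m (R + R') T = ew hD m R T + ew hD m R' T := eW_add_left _ hm hR hR' hT

theorem ew_sub_l (hm : m ≠ 0) (hR : m • R = 0) (hR' : m • R' = 0) (hT : m • T = 0) :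
    ew hD m (R - R') T = ew hD m R T - ew hD m R' T := by
  have := ew_add_l hD (R := R - R') hm (by rw [smul_sub, hR, hR', sub_self]) hR' hT
  rw [sub_add_cancel] at this
  exact eq_sub_of_add_eq this.symm

theorem ew_add_r (hm : m ≠ 0) (hR : m • R = 0) (hT : m • T = 0) (hT' : m • T' = 0) :
    ew hD m R (T + T') = ew hD m R T + ew hD m R T' := eW_add_right _ hm hR hT hT'

theorem ew_sub_r (hm : m ≠ 0) (hR : m • R = 0) (hT : m • T = 0) (hT' : m • T' = 0) :
    ew hD m R (T - T') = ew hD m R T - ew hD m R T' := by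
  rw [ew_skew, ew_sub_l hD hm hT hT' hR, ew_skew hD R T, ew_skew hD R T']; abel

theorem ew_neg (hm : m ≠ 0) (hR : m • R = 0) (hT : m • T = 0) :
    ew hD m R (-T) = ew hD m T R := by
  have := ew_sub_r hD hm hR hT hT
  have e := ew_sub_r hD hm hR (smul_zero m) hT
  rw [sub_self, sub_self] at this
  rw [this, zero_sub, zero_sub] at e
  rw [e, ew_skew hD R T]

theorem ew_tor (hm : m ≠ 0) (hR : m • R = 0) (hT : m • T = 0) : m • ew hD m R T = 0 :=
  nsmul_eW _ hm hR hT

theorem ew_sm (hm : m ≠ 0) (hR : m • R = 0) (hT : m • T = 0) (θ : SL k M) :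
    θ • ew hD m R T = ew hD m (θ • R) (θ • T) :=
  (eW_semi (cd hD k) (cd hD k) (res0 θ) (map_ratCast (res0 θ : k →+* k) a)
    (map_ratCast (res0 θ : k →+* k) b) hm hR hT).symm

end ew

/-- a point given by its coordinates -/
def pt {x y : E} (n : (crv (a : E) (b : E)).Nonsingular x y) : Pm E a b := .some x y n

/-- the multiplicity of `P` in the pull back of the point `R` -/
def pm [CFF k F] (x y : F) (R : Ep k a b) (P : Plk k F) : ℤ :=
  match R with
  | .zero => 0
  | .some c d _ => if Val P x c ∧ Val P y d then ord P (x - algebraMap k F c) else 0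

theorem sq_down [CFF k F] [CFF k M] [Algebra F M] [IsScalarTower k F M] [FiniteDimensional F M]
    (P : Plk k M) (ξ : Pm F a b) : sq hD P (mq (algebraMap F M) ξ) = sq hD (down F P) ξ :=
  sp_down (cd hD F) (cd hD M) _ _ P ξ

section gen

variable [CFF k E] {x y : E} {n : (crv (a : E) (b : E)).Nonsingular x y} (g : Gn k x y)

/-- the place of a point -/
def pl (R : Ep k a b) : Plk k E := pc (cd hD E) n g R

theorem sq_pl (R : Ep k a b) : sq hD (pl hD (n := n) g R) (pt n) = R := sp_pc _ n g R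

theorem pl_sq (P : Plk k E) : pl hD (n := n) g (sq hD P (pt n)) = P := pc_sp _ n g P

theorem pl_inj : Injective (pl hD (n := n) g) := (pc (cd hD E) n g).injective

theorem pl_sm {θ : SL k E} (h : θ • pt n = pt n) (R : Ep k a b) :
    θ • pl hD (n := n) g R = pl hD (n := n) g (θ • R) := by
  rw [← pl_sq hD (n := n) g (θ • _), ← h, sq_sm, sq_pl]

theorem pm_eq [CFF k F] [Algebra E F] [IsScalarTower k E F] [FiniteDimensional E F] {R : Ep k a b}
    (h : 2 • R ≠ 0) (Q : Plk k F) : pm (algebraMap E F x) (algebraMap E F y) R Q =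
      pull F (single (pl hD (n := n) g R) 1) Q := by
  have h0 : R ≠ 0 := fun e => h (by rw [e, smul_zero])
  have h1 : R ≠ -R := fun e => h (by rw [two_smul]; exact add_eq_zero_iff_eq_neg.2 e)
  obtain ⟨c, d, e, t, v⟩ : ∃ c d : k, (sq hD (down E Q) (pt n) = R ↔
      Val (down E Q) x c ∧ Val (down E Q) y d) ∧ dv k (x - algebraMap k E c) =
      single (pl hD (n := n) g R) 1 + single (pl hD (n := n) g (-R)) 1 -
      single (pl hD (n := n) g 0) 2 ∧ pm (algebraMap E F x) (algebraMap E F y) R Q =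
      if Val Q (algebraMap E F x) c ∧ Val Q (algebraMap E F y) d then
        ord Q (algebraMap E F x - algebraMap k F c) else 0 := by
    rcases R with _ | ⟨c, d, l⟩
    · exact (h0 rfl).elim
    · exact ⟨c, d, sp_eq_some (cd hD E) n l, dv_x (cd hD E) n g l, rfl⟩
  rw [pull_apply, v]
  split_ifs with v
  · have e' : down E Q = pl hD (n := n) g R := by
      rw [← pl_sq hD (n := n) g (down E Q), e.2 ⟨val_down v.1, val_down v.2⟩]
    rw [IsScalarTower.algebraMap_apply k E F, ← map_sub, ord_algebraMap, e', ← dv_apply, t,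
      Finsupp.sub_apply, Finsupp.add_apply, Finsupp.single_eq_of_ne ((pl_inj hD g).ne h0),
      Finsupp.single_eq_of_ne ((pl_inj hD g).ne h1), add_zero, sub_zero]
  · rw [Finsupp.single_eq_of_ne fun l' => v ?_, mul_zero]
    have := e.1 (by rw [l', sq_pl])
    exact ⟨Val.up this.1, Val.up this.2⟩

include hD g in
/-- restriction to the function field of the curve -/
theorem ex_rs [Algebra E M] [IsScalarTower k E M] {θ : SL k M}
    (h : θ • mq (algebraMap E M) (pt n) = mq (algebraMap E M) (pt n)) : ∃ θ' : SL k E,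
      (∀ z, θ.1 (algebraMap E M z) = algebraMap E M (θ'.1 z)) ∧ res0 θ' = res0 θ ∧
        θ' • pt n = pt n := by
  obtain ⟨s, hs, hx, hy⟩ := ex_iso (cd hD E) n g (cd hD E) n g (res0 θ)
    (map_ratCast (res0 θ : k →+* k) a) (map_ratCast (res0 θ : k →+* k) b)
  rw [show mq (algebraMap E M) (pt n) = pt _ from mp_some _ _ _ n] at h
  refine ⟨⟨s, res0 θ, hs⟩, fun z => ?_, res0_eq hs, mp_id _ _ _ n hx hy⟩
  refine RingHom.eqOn_field_closure (f := (θ.1 : M →+* M).comp (algebraMap E M))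
    (g := (algebraMap E M).comp (s : E →+* E)) ?_ (g.mem z)
  rintro _ (⟨c, rfl⟩ | rfl | rfl)
  · simp only [RingHom.comp_apply, RingHom.coe_coe, hs, ← IsScalarTower.algebraMap_apply, res0_spec]
  · simpa [hx] using (fx_xy h).1
  · simpa [hy] using (fx_xy h).2

include g in
/-- the auxiliary function -/
theorem ex_phi {B0 : Dv k E} (h0 : dg B0 = 0) (h1 : B0 (pl hD (n := n) g 0) = 0) {s : Ep k a b}
    (hs : m • s = Sq hD (pt n) B0) : ∃ (φ : Eˣ) (B : Dv k E), dv k (φ : E) = m • B - B0 ∧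
      Sq hD (pt n) B = s ∧ Val (pl hD (n := n) g 0) (φ : E) 1 := by
  obtain ⟨B, b0, b1, b2⟩ : ∃ B : Dv k E, dg B = 0 ∧ B (pl hD (n := n) g 0) = 0 ∧
      Sq hD (pt n) B = s := by
    have := CFF.ac (k := k) (F := E)
    obtain ⟨c, hc⟩ := Infinite.exists_notMem_finset {xp (-s)}
    obtain ⟨d, e⟩ := IsAlgClosed.exists_pow_nat_eq (c ^ 3 + a * c + b) two_pos
    have l := (cd (k := k) hD k).nsg e
    have t0 : pt l ≠ 0 := WeierstrassCurve.Affine.Point.some_ne_zero l
    obtain ⟨t, t0, t1⟩ : ∃ t : Ep k a b, t ≠ 0 ∧ t + s ≠ 0 := ⟨pt l, t0, fun e => hc (by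
      rw [← eq_neg_of_add_eq_zero_left e]; exact Finset.mem_singleton.2 rfl)⟩
    refine ⟨single (pl hD (n := n) g (t + s)) 1 - single (pl hD (n := n) g t) 1,
      by simp [dg_sgl], ?_, ?_⟩
    · rw [Finsupp.sub_apply, Finsupp.single_eq_of_ne ((pl_inj hD g).ne t0.symm),
        Finsupp.single_eq_of_ne ((pl_inj hD g).ne t1.symm), sub_self]
    · rw [map_sub, Sq_single, Sq_single, sq_pl, sq_pl, one_smul, one_smul, add_sub_cancel_left]
  obtain ⟨φ, e⟩ := ex_fn (cd hD E) n g (D := m • B - B0) (by rw [map_sub, map_nsmul, b0, h0]; simp)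
    (show Sq hD (pt n) _ = 0 by rw [map_sub, map_nsmul, b2, hs, sub_self])
  have o : ord (pl hD (n := n) g 0) (φ : E) = 0 := by
    rw [← dv_apply, e, Finsupp.sub_apply, Finsupp.smul_apply, b1, h1]; simp
  refine ⟨φ / cU E (lc (pl hD (n := n) g 0) φ).toMul, B, e ▸ Finsupp.ext fun P => ?_, b2,
    val_one_of_lc (by rw [ou_div, o, ord_cU, sub_self]) ?_⟩
  · rw [dv_apply, dv_apply, ou_div, ord_cU, sub_zero]
  · rw [lc_div, lc_cU]; exact sub_self _

end gen

variable [CFF k F] [CFF k M] [Algebra F M] [IsScalarTower k F M] [FiniteDimensional F M]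
  {Γ N : Subgroup (SL k M)} {Y : Set (Plk k M)} {R : Finset (Plk k M)}
  {lf : SL k M → Plk k M → SL k M} (A : Fm Γ N Y) (q : Qt N Y F)
include q

omit [CharZero k] in
theorem Qt.desc {d : Dv k M} (h : Fx N d) : ∃ d' : Dv k F, ∀ P, d' (down F P) = d P := by
  choose s hs using exists_over (k := k) (K := F) (L := M)
  refine ⟨d.comapDomain s (LeftInverse.injective hs).injOn, fun P => ?_⟩
  obtain ⟨n, l, e⟩ := q.tr P _ (hs _).symm
  rw [Finsupp.comapDomain_apply, ← e, ← h n l, dv_sm, inv_smul_smul, h n l]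

include A

omit [CharZero k] in
theorem Qt.y {P Q : Plk k M} (e : down F P = down F Q) (h : P ∈ Y) : Q ∈ Y := by
  obtain ⟨n, l, rfl⟩ := q.tr P Q e
  exact A.st n (A.le l) P h

theorem Qt.sn {ξ : Pm F a b} (hξ : Fx N (mq (algebraMap F M) ξ)) {d : Dv k M} (h : Fx N d)
    {d' : Dv k F} (e : ∀ P, d' (down F P) = d P) :
    SN hD N (mq (algebraMap F M) ξ) d = Sq hD ξ d' := by
  choose s hs using exists_over (k := k) (K := F) (L := M)
  rw [SN_apply, os_eq (ivt hD A.k1 hξ h) s (fun P _ => ⟨_, q.tr _ P (hs _)⟩) fun P Q _ n l e => by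
    rw [← hs P, ← q.dn l, e, hs], ← SN_bot, SN_apply, os_bot]
  simp only [← e, sq_down, hs]

/-- **the pairing of Weil as a sum of local symbols** -/
theorem Qt.he [IsAlgClosed k] [CFF k E] [Algebra E F] [IsScalarTower k E F] [FiniteDimensional E F]
    {x y : E} {n : (crv (a : E) (b : E)).Nonsingular x y} (g : Gn k x y) {ξ : Pm M a b}
    (eξ : ξ = mq (algebraMap F M) (mq (algebraMap E F) (pt n))) (hξ : Fx N ξ)
    (c : ∀ P ∉ Y, sq hD P ξ = 0) (r : Rp Γ N R lf) (hR : ∀ P ∈ R, P ∈ Y) (hm : m ≠ 0) {ψ : Eˣ}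
    {B : Dv k E} (hψ : m • B = dv k (ψ : E)) (h1 : Val (pl hD (n := n) g 0) (ψ : E) 1)
    (sψ : Sp N (dY Y) Y od R (Additive.ofMul (jU M (jU F ψ)))) {u : Un M} {d : Dv k M}
    (fu : Fx N u) (fd : Fx N d) (e : dY Y u = m • d) (su : Sp N (dY Y) Y od R u) :
    ∑ P ∈ R, wn m P u (Additive.ofMul (jU M (jU F ψ))) = ew hD m (SN hD N ξ d) (Sq hD (pt n) B) := by
  subst eξ
  obtain ⟨f, rfl⟩ := q.un fu
  obtain ⟨d', e'⟩ := q.desc fd
  have o : ∀ P ∉ Y, down E (down F P) = pl hD (n := n) g 0 := fun P l => by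
    rw [← pl_sq hD (n := n) g (down E _), ← sq_down, ← sq_down, c P l]
  have f1 : ∀ P ∈ Y, ord P (jU M f : M) = m * d P := fun P l =>
    (od_dY l _).symm.trans (DFunLike.congr_fun e P)
  have f2 : ∀ P ∈ Y, ord (down F P) (f : F) = m * d' (down F P) := fun P l => by
    rw [e', ← f1 P l, ord_jU, q.ur P l, Nat.cast_one, one_mul]
  have dψ : ψ ∈ divU k E m := fun P => ⟨B P, by rw [← dv_apply, ← hψ]; rfl⟩
  have s : push E (dv k (f : F) - m • d') = single (pl hD (n := n) g 0) (-(m * dg d')) := by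
    have := (Finsupp.support_subset_singleton (f := push E (dv k (f : F) - m • d'))
      (a := pl hD (n := n) g 0)).1 fun P l => Finset.mem_singleton.2 (not_not.1 fun l' =>
        Finsupp.mem_support_iff.1 l (by
          rw [push_apply]
          refine Finset.sum_eq_zero fun Q hQ => ?_
          obtain ⟨Q, rfl⟩ := exists_over (L := M) Q
          rw [Finsupp.sub_apply, dv_apply, f2 Q (not_not.1 fun i => l' (mem_over.1 hQ ▸ o Q i))]
          exact sub_self _))
    have e := congrArg dg this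
    rw [dg_sgl, dg_push, map_sub, dg_dv, map_nsmul, zero_sub, nsmul_eq_mul] at e
    rw [this, ← e]
  refine (q.sum r hR hm (fun P l => ⟨_, f1 P (hR P l)⟩) (fun P _ => jU_mem (jU_mem dψ) P)
    (q.off su sψ fun P l => Val.up (Val.up (o P l ▸ h1)))).trans ((adj hm dψ fun Q => ?_).trans ?_)
  · obtain ⟨Q, rfl⟩ := exists_over (L := M) Q
    by_cases l : Q ∈ Y
    exacts [.inl ⟨_, f2 Q l⟩, .inr (o Q l ▸ h1)]
  rw [eW_eq (cd hD k) (cd hD E) n g hm (A := push E d' - single (pl hD (n := n) g 0) (dg d')) (by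
    rw [nU_val, dv_norm, ← sub_add_cancel (dv k (f : F)) (m • d'), map_add, s, map_nsmul, smul_sub,
      Finsupp.smul_single, nsmul_eq_mul, Finsupp.single_neg]; abel) hψ, q.sn hD A hξ fd e']
  refine congrArg (ew hD m · _) ?_
  change Sq hD (pt n) _ = _
  rw [map_sub, Sq_single, sq_pl, smul_zero, sub_zero]
  exact (S_push (cd hD E) (cd hD F) _ _ (pt n) d').symm

end Vale.Agent.P014T.Ev
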