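import Vale.Agent.P014T.Ev.Kz
import Vale.Agent.P014T.Ev.Unp

/-! # P014 T, block EV: the classes of modular units have the property `Kz` -/

set_option autoImplicit false
set_option linter.all false

namespace Vale.Agent.P014T.Ev

open CongruenceSubgroup
open Vale.Agent.P022 (GQ)
open Vale.Agent.P027M.M (Mdl FF)

theorem kz_of {X : Mdl} {A B : ℤ} {hD : 4 * ((A : ℤ) : ℚ) ^ 3 + 27 * ((B : ℤ) : ℚ) ^ 2 ≠ 0} {l n : ℕ}
    {x y u v : FF} {h} {z : GQ → P004M.TE.Pt A B} (hl : l ≠ 0)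
    (Z : Uy.Zf X hD (Gamma l) (Dr.Hm l) (pt (x := x) (y := y) h) (2 ^ n) (zt n) u v z) :
    Kz X A B x y l n u v z := fun _ _ _ _ _ _ nn s ex ey eu ev => unp hl s Z nn ex ey eu ev

theorem zt_prim (n : ℕ) : IsPrimitiveRoot (zt n) (2 ^ n) :=
  IsPrimitiveRoot.coe_units_iff.1 (Sy.ex_prim' n)

end Vale.Agent.P014T.Ev
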