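import Vale.Agent.P014T.Ev.Ls
import Vale.Agent.P014T.Ts.Sm
import Vale.Agent.P014T.Ew.Cmp
import Vale.Agent.P014T.Sy.Wt

/-! # P014 T, block EV: the link with the absolute Galois group -/

set_option autoImplicit false
set_option linter.all false

open scoped Classical

noncomputable section

namespace Vale.Agent.P014T.Ev

open Vale.Agent.P019P P025H492 P027M.K Kc Function Filter Topology
open Ts hiding sub_zero ev
open Vale.Agent.P022 (Qb GQ)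
open Vale.Agent.P004S.Ga (K O Z2)
open Vale.Agent.P004S.Aq (cy)
open Vale.Agent.P004F.Rc (hn)

variable {F M : Type} [Field F] [Field M] [Algebra Qb F] [Algebra Qb M]

/-- the induced automorphism of the constants -/
def rq : SL Qb M →* GQ :=
  MonoidHom.mk' (fun θ => AlgEquiv.ofRingEquiv (f := res0 θ) fun q => by simp) fun θ θ' =>
    AlgEquiv.ext fun c => DFunLike.congr_fun (map_mul res0 θ θ') c

theorem rq_apply (θ : SL Qb M) (c : Qb) : rq θ c = res0 θ c := rfl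

theorem rq_spec (θ : SL Qb M) (c : Qb) : θ.1 (algebraMap Qb M c) = algebraMap Qb M (rq θ c) :=
  res0_spec θ c

theorem rq_eq {θ : SL Qb M} {g : GQ} (h : ∀ c, θ.1 (algebraMap Qb M c) = algebraMap Qb M (g c)) :
    rq θ = g := AlgEquiv.ext fun c => (algebraMap Qb M).injective ((rq_spec θ c).symm.trans (h c))

theorem rq_one {θ : SL Qb M} : rq θ = 1 ↔ res0 θ = 1 :=
  ⟨fun h => RingEquiv.ext fun c => DFunLike.congr_fun h c,
    fun h => AlgEquiv.ext fun c => DFunLike.congr_fun h c⟩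

/-- the exponential -/
def xc : K →+ Cs Qb := Ew.X

theorem xc_eq {x y : K} : xc x = xc y ↔ x - y ∈ O := Ew.X_eq

theorem xc_sm (θ : SL Qb M) (x : K) : θ • xc x = xc (cy (rq θ) * x) :=
  Units.ext (Sy.ex_cy (rq θ) x)

/-- the elements of `Γ` over `D` -/
abbrev ov (Γ : Subgroup (SL Qb M)) (D : Subgroup GQ) : Subgroup (SL Qb M) := Γ ⊓ D.comap rq

/-- `Γ` is the group of the lifts of `σ` -/
structure Lk [Algebra F M] (σ : GQ →* SL Qb F) (Γ N : Subgroup (SL Qb M)) : Prop where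
  rs : ∀ g, rq (σ g) = g
  up : ∀ θ ∈ Γ, ∀ z : F, θ.1 (algebraMap F M z) = algebraMap F M ((σ (rq θ)).1 z)
  sur : ∀ g, ∃ θ ∈ Γ, rq θ = g
  ker : ∀ θ ∈ Γ, rq θ = 1 → θ ∈ N
  sm : ∀ z : F, ∀ᶠ g in 𝓝 (1 : GQ), (σ g).1 z = z

theorem fm_ov [CFF Qb M] {Γ N : Subgroup (SL Qb M)} {Y : Set (Plk Qb M)} (A : Fm Γ N Y)
    (D : Subgroup GQ) : Fm (ov Γ D) N Y :=
  have le : N ≤ ov Γ D := fun n l => ⟨A.le l, Subgroup.mem_comap.2 (by
    rw [rq_one.2 (A.k1 n l)]; exact one_mem _)⟩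
  A.mono inf_le_left le_rfl le fun x l => A.nz x l.1

/-- smoothness -/
theorem Lk.ev [Algebra F M] [IsScalarTower Qb F M] [CFF Qb F] [CFF Qb M] [FiniteDimensional F M]
    {σ : GQ →* SL Qb F} {Γ N : Subgroup (SL Qb M)} {Y : Set (Plk Qb M)} (L : Lk σ Γ N)
    (A : Fm Γ N Y) (q : Qt N Y F) {p : SL Qb M → Prop} (hp : ∀ᶠ y in nb Qb M, p y) :
    ∀ᶠ g in 𝓝 (1 : GQ), ∃ θ ∈ Γ, rq θ = g ∧ p θ := by
  have := A.fin
  have := sm_nb A.k1 (l := comap rq (𝓝 1) ⊓ 𝓟 (Γ : Set (SL Qb M))) (fun f h => by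
    obtain ⟨z, rfl⟩ := (q.fx f).1 h
    exact eventually_inf_principal.2 ((tendsto_comap.eventually (L.sm z)).mono fun θ e l => by
      rw [L.up θ l, e])) hp
  refine (eventually_comap.1 (eventually_inf_principal.1 this)).mono fun g h => ?_
  obtain ⟨θ, l, e⟩ := L.sur g
  obtain ⟨n, l', k⟩ := h θ e l
  exact ⟨_, mul_mem l (A.le l'), by rw [map_mul, e, rq_one.2 (A.k1 n l'), mul_one], k⟩

/-- **from the evaluation formula to the symbol** -/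
def OUT : Prop := ∀ (F M C : Type) [Field F] [Field M] [Field C] [IsAlgClosed C] [Algebra Qb F]
  [Algebra Qb M] [Algebra F M] [IsScalarTower Qb F M] [CFF Qb F] [CFF Qb M] [FiniteDimensional F M]
  (Φ : Sy.Fd C) (σ : GQ →* SL Qb F) (Γ N : Subgroup (SL Qb M)) (Y : Set (Plk Qb M)) (n : ℕ)
  (H : Subgroup GQ) (J : Type) [Fintype J] (s : J → GQ) (p : GQ → J → J) (W : J → ℤ)
  (r : J → SL Qb M) (α β : Un M) (a b : SL Qb M → ℤ) (u v : F) (Av : Plk Qb F →₀ ℤ)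
  (R : Finset (Plk Qb M)) (lf : SL Qb M → Plk Qb M → SL Qb M) (c : SL Qb M → Cs Qb)
  (E : GQ → GQ → K), (∀ x, Φ.e x ∈ Φ.A) → Fm Γ N Y → Qt N Y F → Lk σ Γ N →
  (H : Set GQ) ∈ 𝓝 (1 : GQ) → (∀ g ∈ H, g (Sy.ex (hn n)) = Sy.ex (hn n)) → Tr ⊤ H s p →
  (∀ g ∈ Φ.D, ∀ i, W (p g i) = W i) → (∀ i, r i ∈ Γ ∧ rq (r i) = s i) →
  Rt (ov Γ H) (ic M (xc (hn n))) α a → Rt (ov Γ H) (ic M (xc (hn n))) β b →
  vv (2 ^ n • α) = algebraMap F M u → vv (2 ^ n • β) = algebraMap F M v →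
  (∀ P ∈ Y, ord P (vv α) = 0 ∧ ord P (vv β) = 0) → (∀ g ∈ Φ.D, ∀ Q, Av (σ g • Q) = Av Q) →
  Rp (ov Γ Φ.D) N R lf → (∀ P ∈ R, P ∈ Y) → (∀ Q ∈ Av.support, ∃ P ∈ R, down F P = Q) →
  (∀ x ∈ ov Γ Φ.D, 2 ^ n • c x = 0) → (∀ x ∈ ov Γ Φ.D, ∀ y ∈ N, c (x * y) = c x) →
  (∀ᶠ y in nb Qb M, y ∈ ov Γ Φ.D → ∀ x ∈ ov Γ Φ.D, c (x * y) = c x) → Z2 cy Φ.D E →
  (∀ x ∈ ov Γ Φ.D, ∀ y ∈ ov Γ Φ.D, xc (E (rq x) (rq y)) + ∑ P ∈ R, Av (down F P) •
    cw2 W r (fun x => p (rq x)) (cp (xc (hn n)) a b) (lf x (lf y P • P)) (lf y P) =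
      c x + x • c y - c (x * y)) →
  ∀ e : ℤ, (-e) • Φ.ι E = Φ.sym (fun g (y : Plk Qb F × J) => (σ g • y.1, p g y.2))
    (Av.support ×ˢ Finset.univ) n (fun y => (e * Av y.1 * W y.2 : ℤ) * (cy (s y.2))⁻¹)
    (fun y => Φ.e (vl y.1 ((σ (s y.2)).1 u))) fun y => Φ.e (vl y.1 ((σ (s y.2)).1 v))

end Vale.Agent.P014T.Ev
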