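import Vale.Agent.P014T.Kc.Ev
import Vale.Agent.P014T.Ts.Fr

/-! # P014 T, block EV: tame symbols, reciprocity of Weil and adjunction on orbit representatives -/

set_option autoImplicit false
set_option linter.all false

open scoped Classical

noncomputable section

namespace Vale.Agent.P014T.Ev

open Vale.Agent.P019P P025H492 P025H816 P027M.K Kc Function
open Ts hiding sub_zero ev

variable {k E F M : Type} [Field k] [Field E] [Field F] [Field M] [Algebra k M]

/-- the constants, written additively -/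
def Cs (k : Type) [Field k] : Type := Additive kˣ

instance : AddCommGroup (Cs k) := inferInstanceAs (AddCommGroup (Additive kˣ))

instance : DistribMulAction (SL k M) (Cs k) where
  smul θ c := aU (res0 θ) c
  one_smul c := by
    change aU (res0 1) c = c
    rw [map_one]; rfl
  mul_smul θ θ' c := by
    change aU (res0 (θ * θ')) c = _
    rw [map_mul]; rfl
  smul_zero _ := map_zero _
  smul_add _ := map_add _

theorem cs_sm (θ : SL k M) (c : Cs k) : θ • c = aU (res0 θ) c := rfl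

variable (M) in
/-- constants as units -/
def ic : Cs k →+ Un M := MonoidHom.toAdditive (cU M)

theorem ic_sm (θ : SL k M) (c : Cs k) : θ • ic M c = ic M (θ • c) := vv_inj (res0_spec θ _)

theorem ic_inj : Injective (ic (k := k) M) := fun _ _ h =>
  Units.ext ((algebraMap k M).injective (congrArg vv h))

/-- the multiplicity at a place -/
def od (P : Plk k M) : Dv k M →+ ℤ := Finsupp.applyAddHom P

variable [CFF k M] {Γ N : Subgroup (SL k M)} {Y : Set (Plk k M)} {m : ℕ}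

/-- the local symbol -/
def wn (n : ℕ) (P : Plk k M) (u v : Un M) : Cs k := w n P (Additive.toMul (α := Mˣ) u) (Additive.toMul (α := Mˣ) v)

theorem od_dY {P : Plk k M} (h : P ∈ Y) (u : Un M) : od P (dY Y u) = ord P (vv u) :=
  (dY_apply Y u P).trans (if_pos h)

theorem w_sm {n : ℕ} (hn : n ≠ 0) (θ : SL k M) (P : Plk k M) {u v : Un M}
    (hu : (n : ℤ) ∣ ord P (vv u)) (hv : (n : ℤ) ∣ ord P (vv v)) :
    wn n (θ • P) (θ • u) (θ • v) = θ • wn n P u v := by
  obtain ⟨a, ha⟩ := hu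
  obtain ⟨b, hb⟩ := hv
  revert ha hb
  obtain ⟨f, rfl⟩ := (Additive.ofMul (α := Mˣ)).surjective u
  obtain ⟨g, rfl⟩ := (Additive.ofMul (α := Mˣ)).surjective v
  intro (ha : ord P (f : M) = _) (hb : ord P (g : M) = _)
  change w n (plEquiv θ.1 _ (res0_spec θ) P) (mU θ.1 f) (mU θ.1 g) = aU _ (w n P f g)
  have h1 := lc_semi (res0_spec θ) (P := P) (u := f ^ b / g ^ a)
    (by rw [ou_div, ou_zpow, ou_zpow, ha, hb]; ring)
  rw [_root_.map_div, map_zpow, map_zpow, lc_div, lc_div, lc_zpow, lc_zpow, lc_zpow, lc_zpow] at h1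
  rw [w_eq hn ha hb, w_eq hn (a := a) (b := b) (by rw [mU_val, ord_plEquiv, ha])
    (by rw [mU_val, ord_plEquiv, hb]), add_sub_assoc, add_sub_assoc, h1, map_add, map_zsmul, aU_sg]

/-- the tame symbols -/
theorem ls (A : Fm Γ N Y) (hm : m ≠ 0) : Ls Γ N (dY Y) m Y od (ic M) (wn 1) (wn m) where
  tk c n l := by rw [cs_sm, A.k1 n l]; rfl
  st := A.st
  oe x _ p d := (dv_sm x d _).trans (by rw [inv_smul_smul]; rfl)
  l1 p u u' v := w1_mul_left p _ _ _
  r1 p u v v' := w1_mul_right p _ _ _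
  e1 x _ p u v := w_sm one_ne_zero x p (by simp) (by simp)
  c1 p h c v := by
    rw [od_dY h]
    refine (w_one p (cU M (Additive.toMul (α := kˣ) c)) _).trans ?_
    rw [ord_cU, lc_cU, zero_mul, zero_smul, zero_smul, zero_add, sub_zero]
    rfl
  lm p h u u' v a b := w_mul_left hm _ (od_dY h u ▸ a) (od_dY h u' ▸ b)
  rm p h u v v' a b := w_mul_right hm _ (od_dY h v ▸ a) (od_dY h v' ▸ b)
  em x _ p h u v a b := w_sm hm x p (od_dY h u ▸ a) (od_dY h v ▸ b)
  lv p h u v a := by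
    have := w_level (P := p) hm one_ne_zero (f := Additive.toMul (α := Mˣ) v)
      (g := Additive.toMul (α := Mˣ) u) (by rw [mul_one]; exact od_dY h v ▸ a) (by simp)
    rw [mul_one, w_skew, w_skew 1, neg_inj] at this
    exact this.symm
  ns p h u v a b := by
    rw [od_dY h] at a b
    obtain ⟨a, ha⟩ := a
    obtain ⟨b, hb⟩ := b
    change w 1 p _ _ = m • w m p _ _
    rw [w_eq hm ha hb, w_eq one_ne_zero (a := m * a) (b := m * b) (by rw [← ha, Nat.cast_one, one_mul]; rfl)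
      (by rw [← hb, Nat.cast_one, one_mul]; rfl), ← natCast_zsmul]
    module

theorem w_val (n : ℕ) {P : Plk k M} (f : Mˣ) {g : Mˣ} (h : Val P (g : M) 1) : w n P f g = 0 := by
  simp [w, (h.unit one_ne_zero).2, lc_eq_zero h]

section tower

variable [Algebra k F] [Algebra F M] [IsScalarTower k F M] [CFF k F] [FiniteDimensional F M]

theorem val_down {P : Plk k M} {z : F} {c : k} (h : Val P (algebraMap F M z) c) :
    Val (down F P) z c := by
  unfold Val at *
  rw [IsScalarTower.algebraMap_apply k F M, ← map_sub, mem_Mge, map_eq_zero] at h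
  exact mem_Mge.2 (h.imp_right fun h => (ord_up_pos_iff P _).1 h)

theorem w_jU {n : ℕ} (hn : n ≠ 0) {P : Plk k M} (h : ram F P = 1) {f g : Fˣ}
    (hf : (n : ℤ) ∣ ord P (jU M f : M)) (hg : (n : ℤ) ∣ ord P (jU M g : M)) :
    w n P (jU M f) (jU M g) = w n (down F P) f g := by
  obtain ⟨a, ha⟩ := hf
  obtain ⟨b, hb⟩ := hg
  have ha' := ha
  have hb' := hb
  rw [ord_jU, h, Nat.cast_one, one_mul] at ha' hb'
  have h1 := lc_jU (L := M) (Q := P) (u := f ^ b / g ^ a)
    (by rw [ou_div, ou_zpow, ou_zpow, ha', hb']; ring)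
  rw [_root_.map_div, map_zpow, map_zpow, lc_div, lc_div, lc_zpow, lc_zpow, lc_zpow, lc_zpow] at h1
  rw [w_eq hn ha hb, w_eq hn ha' hb', add_sub_assoc, add_sub_assoc, h1]

/-- adjunction with exceptional places -/
theorem adj {n : ℕ} (hn : n ≠ 0) {f : Mˣ} {g : Fˣ} (hg : g ∈ divU k F n)
    (hf : ∀ Q : Plk k M, (n : ℤ) ∣ ord Q (f : M) ∨ Val (down F Q) (g : F) 1) :
    e k n f (jU M g) = e k n (nU F f) g := by
  rw [e_skew, e_skew n g, e, e, finsum_fib F _ (w_finite n _ _)]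
  refine congrArg _ (finsum_congr fun P => ?_)
  by_cases h : Val P (g : F) 1
  · rw [w_skew, w_val n _ h, neg_zero]
    exact Finset.sum_eq_zero fun Q l => by
      rw [w_skew, w_val n _ (Val.up (mem_over.1 l ▸ h)), neg_zero]
  obtain ⟨u, a, hu, rfl⟩ := exists_split P hg
  choose! b hb using fun (Q : Plk k M) (l : Q ∈ fib M P) =>
    (hf Q).resolve_right (mem_over.1 l ▸ h)
  rw [w_split hn _ a hu (b := ∑ Q ∈ fib M P, b Q)
    (by rw [ord_nU, Finset.mul_sum]; exact Finset.sum_congr rfl hb),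
    proj, zsmul_sum', zsum_smul, ← Finset.sum_add_distrib]
  refine Finset.sum_congr rfl fun Q hQ => ?_
  have := hb Q hQ
  obtain rfl := mem_over.1 hQ
  rw [map_mul, map_zpow, w_split hn _ a (by rw [ord_jU, hu, mul_zero]) this, lc_jU hu]

end tower

/-- the quotient by `N` -/
structure Qt (N : Subgroup (SL k M)) (Y : Set (Plk k M)) (F : Type) [Field F] [Algebra k F]
    [Algebra F M] [IsScalarTower k F M] [CFF k F] [FiniteDimensional F M] : Prop where
  fx : ∀ x : M, (∀ n ∈ N, n.1 x = x) ↔ ∃ z, algebraMap F M z = x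
  ur : ∀ P ∈ Y, ram F P = 1
  tr : ∀ P Q : Plk k M, down F P = down F Q → ∃ n ∈ N, n • P = Q

theorem ex_qt [CharZero k] (A : Fm Γ N Y) : ∃ (F : IntermediateField k M) (_ : CFF k F)
    (_ : FiniteDimensional F M) (_ : IsGalois F M), Qt N Y F ∧
      ∀ n ∈ N, ∃ σ : M ≃ₐ[F] M, autSL k σ = n := by
  have := A.fin
  obtain ⟨F, c, f, g, h0, h1, h2⟩ := ex_fix A.k1
  obtain ⟨C, t⟩ := A.cv h1
  refine ⟨F, c, f, g, ⟨fun x => (h0 x).symm.trans ⟨fun l => ⟨⟨x, l⟩, rfl⟩, fun ⟨z, e⟩ => e ▸ z.2⟩,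
    fun P l => ?_, t⟩, h2⟩
  obtain ⟨π, -, e⟩ := exists_unif (down F P)
  exact ram_eq_one_of_exists ((C.ur P l π).trans e)

section quot

variable [Algebra k F] [Algebra F M] [IsScalarTower k F M] [CFF k F] [FiniteDimensional F M]
  {R : Finset (Plk k M)} {lf : SL k M → Plk k M → SL k M} (q : Qt N Y F)
include q

theorem Qt.un {u : Un M} (h : Fx N u) : ∃ f : Fˣ, Additive.ofMul (jU M f) = u := by
  obtain ⟨z, e⟩ := (q.fx (vv u)).1 fun n l => congrArg vv (h n l)
  exact ⟨Units.mk0 z fun l => vv_ne u (by rw [← e, l, map_zero]), vv_inj e⟩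

theorem Qt.dn {n : SL k M} (l : n ∈ N) (P : Plk k M) : down F (n • P) = down F P :=
  pl_ext fun z => by rw [mem_down, mem_down, ← (q.fx _).2 ⟨z, rfl⟩ n l, sm_mem, (q.fx _).2 ⟨z, rfl⟩ n l]

/-- global symbols as sums over the representatives -/
theorem Qt.sum (r : Rp Γ N R lf) (hR : ∀ P ∈ R, P ∈ Y) {n : ℕ} (hn : n ≠ 0) {f g : Fˣ}
    (hf : ∀ P ∈ R, (n : ℤ) ∣ ord P (jU M f : M)) (hg : ∀ P ∈ R, (n : ℤ) ∣ ord P (jU M g : M))
    (h : ∀ P : Plk k M, (∀ x ∈ N, x • P ∉ R) → w n (down F P) f g = 0) :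
    ∑ P ∈ R, w n P (jU M f) (jU M g) = e k n f g := by
  rw [e, finsum_eq_sum_of_support_subset (s := R.image (down F)) _ fun Q l => ?_,
    Finset.sum_image fun P l Q l' e => ?_]
  · exact Finset.sum_congr rfl fun P l => w_jU hn (q.ur P (hR P l)) (hf P l) (hg P l)
  · obtain ⟨x, a, rfl⟩ := q.tr P Q e
    rw [r.fr x a P l l', one_smul]
  · obtain ⟨P, rfl⟩ := exists_over (L := M) Q
    by_contra c
    exact l (h P fun x a b => c (Finset.mem_coe.2 (Finset.mem_image.2 ⟨_, b, q.dn a P⟩)))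

theorem Qt.off {n : ℕ} {f g : Fˣ} (s : Sp N (dY Y) Y od R (Additive.ofMul (jU M f)))
    (t : Sp N (dY Y) Y od R (Additive.ofMul (jU M g))) (c : ∀ P ∉ Y, Val P (jU M g : M) 1)
    (P : Plk k M) (h : ∀ x ∈ N, x • P ∉ R) : w n (down F P) f g = 0 := by
  by_cases l : P ∈ Y
  · have a := (od_dY l _).symm.trans (s P l h)
    have b := (od_dY l _).symm.trans (t P l h)
    exact w_eq_zero n ((mul_eq_zero.1 ((ord_jU P f).symm.trans a)).resolve_left (ram_ne_zero P))
      ((mul_eq_zero.1 ((ord_jU P g).symm.trans b)).resolve_left (ram_ne_zero P))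
  · exact w_val n _ (val_down (c P l))

/-- **reciprocity of Weil** -/
theorem Qt.we (r : Rp Γ N R lf) (hR : ∀ P ∈ R, P ∈ Y) {Φ : Un M} (fΦ : Fx N Φ)
    (s : Sp N (dY Y) Y od R Φ) (c : ∀ P ∉ Y, Val P (vv Φ) 1) (u : Un M) (fu : Fx N u)
    (su : Sp N (dY Y) Y od R u) : ∑ P ∈ R, wn 1 P u Φ = 0 := by
  obtain ⟨f, rfl⟩ := q.un fu
  obtain ⟨g, rfl⟩ := q.un fΦ
  exact (q.sum r hR one_ne_zero (by simp) (by simp) (q.off su s c)).trans (weil f g)

end quot

end Vale.Agent.P014T.Ev
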