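import Vale.Agent.P014T.Ev.Lk
import Vale.Agent.P014T.Ev.He

/-! # P014 T, block EV: the class of a symbol, in the form needed for the evaluation -/

set_option autoImplicit false
set_option linter.all false

open scoped Classical

noncomputable section

namespace Vale.Agent.P014T.Ev

open Vale.Agent.P019P P025H492 P027M.K Vale.Agent.P004H.H666 Kc
open Ts hiding sub_zero ev
open Vale.Agent.P022 (Qb GQ)
open Vale.Agent.P004F.Rc (hn)

variable {F M : Type} [Field F] [Field M] [Algebra Qb F] [Algebra Qb M] [CFF Qb F] [CFF Qb M]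
  [Algebra F M] [IsScalarTower Qb F M] [FiniteDimensional F M] {a b : ℚ}

variable (M) in
/-- the places where `j` is regular -/
def Yo (j : F) : Set (Plk Qb M) := {P | algebraMap F M j ∈ P.1}

/-- the data on the covering `M` -/
structure Pc (hD : 4 * a ^ 3 + 27 * b ^ 2 ≠ 0) (σ : GQ →* SL Qb F) (H : Subgroup GQ) (j : F)
    (ξ : Pm F a b) (n : ℕ) (u v : F) (z : GQ → Ep Qb a b) (Γ N : Subgroup (SL Qb M))
    (α β : Un M) : Prop where
  fm : Fm Γ N (Yo M j)
  qt : Qt N (Yo M j) F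
  lk : Lk σ Γ N
  cu : ∀ P ∉ Yo M j, sq hD P (mq (algebraMap F M) ξ) = 0
  ra : vv (2 ^ n • α) = algebraMap F M u
  rb : vv (2 ^ n • β) = algebraMap F M v
  un : ∀ P ∈ Yo M j, ord P (vv α) = 0 ∧ ord P (vv β) = 0
  sy : Sym (ov Γ H) N (dY (Yo M j)) (SN hD N (mq (algebraMap F M) ξ)) (2 ^ n) (ic M (xc (hn n)))
    α β fun θ => z (rq θ)

/-- `z` is a cocycle on `H` of the class of the symbol `{u, v}` modulo `2 ^ n`, pushed along `ξ` -/
def Pk (hD : 4 * a ^ 3 + 27 * b ^ 2 ≠ 0) (σ : GQ →* SL Qb F) (H : Subgroup GQ) (j : F)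
    (ξ : Pm F a b) (n : ℕ) (u v : F) (z : GQ → Ep Qb a b) : Prop :=
  ∃ (M : Type) (_ : Field M) (_ : Algebra Qb M) (_ : CFF Qb M) (_ : Algebra F M)
    (_ : IsScalarTower Qb F M) (_ : FiniteDimensional F M) (Γ N : Subgroup (SL Qb M))
    (α β : Un M), Pc hD σ H j ξ n u v z Γ N α β

end Vale.Agent.P014T.Ev
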