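import Vale.Agent.P014T.Ev.Pk
import Vale.Agent.P014T.Cp.Defs

/-! # P014 T, block EV: the evaluation of the pairing over an abstract function field -/

set_option autoImplicit false
set_option linter.all false

open scoped Classical

noncomputable section

namespace Vale.Agent.P014T.Ev

open Vale.Agent.P019P P025H492 P027M.K Vale.Agent.P004H.H666 Topology
open Vale.Agent.P022 (Qb GQ)
open Vale.Agent.P004S.Aq (cy)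
open Vale.Agent.P004F.Rc (hn)
open Vale.Agent.P004M.TE (Pt ga)

/-- **evaluation of the pairing** -/
def EVP : Prop := ∀ (A B : ℤ) (hD : 4 * ((A : ℤ) : ℚ) ^ 3 + 27 * ((B : ℤ) : ℚ) ^ 2 ≠ 0) (n : ℕ),
  ∃ e : ℤ, Odd e ∧ ∀ (F C : Type) [Field F] [Field C] [IsAlgClosed C] [Algebra Qb F] [CFF Qb F]
    (Φ : Sy.Fd C) (σ : GQ →* SL Qb F) (H : Subgroup GQ) (j x y u v : F)
    (nn : (crv (((A : ℤ) : ℚ) : F) (((B : ℤ) : ℚ) : F)).Nonsingular x y) (z : GQ → Pt A B)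
    (J : Type) [Fintype J] (s : J → GQ) (p : GQ → J → J) (W : J → ℤ) (R t R' : Pt A B) (f : F)
    (Av : Plk Qb F →₀ ℤ), (∀ c, Φ.e c ∈ Φ.A) → Transcendental Qb x → (∃ Q : Plk Qb F, j ∉ Q.1) →
    (∀ g, (σ g).1 x = x ∧ (σ g).1 y = y) → (H : Set GQ) ∈ 𝓝 (1 : GQ) →
    (∀ g ∈ H, g (Sy.ex (hn n)) = Sy.ex (hn n)) → Pk hD σ H j (pt nn) n u v z → Kc.Tr ⊤ H s p →
    (∀ g ∈ Φ.D, ∀ i, W (p g i) = W i) → R ∈ Wm.Fx A B Φ.D → t ∈ Wm.Fx A B Φ.D → 2 • t ≠ 0 →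
    2 • (t + R) ≠ 0 → 2 ^ n • R' = R → f ≠ 0 → (∀ g ∈ Φ.D, (σ g).1 f = f) →
    (∀ g ∈ Φ.D, ∀ Q, Av (σ g • Q) = Av Q) → (∀ Q, j ∉ Q.1 → Val Q f 1 ∧ Av Q = 0) →
    (∀ Q, j ∈ Q.1 → ord Q f = Av Q - (pm (a := (A : ℤ)) (b := (B : ℤ)) x y (t + R) Q -
      pm (a := (A : ℤ)) (b := (B : ℤ)) x y t Q)) →
    Cp.Zn Φ.D n (fun g => ∑ i, W i • ga (s (p g i)) (z (Kc.ta s p g i))) ∧
      Φ.ι (Cp.cp (Ki.wp hD) n (Bt.dd A B R')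
        fun g => ∑ i, W i • ga (s (p g i)) (z (Kc.ta s p g i))) =
      Φ.sym (fun g (y : Plk Qb F × J) => (σ g • y.1, p g y.2)) (Av.support ×ˢ Finset.univ) n
        (fun y => (e * Av y.1 * W y.2 : ℤ) * (cy (s y.2))⁻¹)
        (fun y => Φ.e (vl y.1 ((σ (s y.2)).1 u))) fun y => Φ.e (vl y.1 ((σ (s y.2)).1 v))

end Vale.Agent.P014T.Ev
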